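import Mathlib
import Vale.Agent.P165.Defs
import Vale.Agent.P165.Main

/-!
A nonuniqueness phase on all large Cartesian powers of nonamenable graphs.
-/

namespace Vale.Agent.Results.P165.LargePowers

open Vale.Agent.P165

theorem result (V : Type) [Infinite V] (G : SimpleGraph V) [G.LocallyFinite] (d : ℕ)
    (hreg : ∀ v, G.degree v = d) (hconn : G.Connected)
    (hqt : ∃ R : Finset V, ∀ v, ∃ r ∈ R, ∃ φ : G ≃g G, φ r = v)
    (hna : ∃ h : ℝ, 0 < h ∧
      ∀ A : Finset V, h * A.card ≤ {v | v ∉ A ∧ ∃ a ∈ A, G.Adj a v}.ncard) :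
    ∃ k₀ : ℕ, ∀ k, k₀ ≤ k → pc (powGraph G (Fin k)) < pu (powGraph G (Fin k)) := by
  obtain ⟨h, hh, hiso⟩ := hna
  exact exists_nonuniqueness hreg hconn hqt hh hiso

end Vale.Agent.Results.P165.LargePowers
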