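import Mathlib
import Vale.Agent.P165.Defs
import Vale.Agent.P165.Sus.Product

/-!
A nonuniqueness phase for transitive graphs of large degree with a fixed spectral gap and few
short closed walks, and for products of nonamenable graphs with large powers of any factor.
-/

namespace Vale.Agent.Results.P165.SpectralGapProducts

open Vale.Agent.P165

theorem result :
    (∀ a K : ℝ, 0 < a → ∃ D₀ : ℕ, ∀ (V : Type) [DecidableEq V] (G : SimpleGraph V)
        [G.LocallyFinite] (D : ℕ), D₀ ≤ D → Infinite V → G.Connected →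
        (∀ x y : V, ∃ φ : G ≃g G, φ x = y) → (∀ x, G.degree x = D) →
        (∀ (S : Finset V) (u : V → ℝ), (∀ x ∉ S, u x = 0) →
          ∑ x ∈ S, u x * ∑ w ∈ G.neighborFinset x, u w ≤ ((D : ℝ) - a) * ∑ x ∈ S, u x ^ 2) →
        (∀ x : V, ∀ j ≤ 10,
          ((G.finsetWalkLength (2 * j) x x).card : ℝ) ≤ K * (D : ℝ) ^ j) →
        pc G < pu G) ∧
    (∀ (V U : Type) [Infinite V] (G : SimpleGraph V) [G.LocallyFinite] (H : SimpleGraph U)
        [H.LocallyFinite] (d e : ℕ), (∀ v, G.degree v = d) → G.Connected →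
        (∃ R : Finset V, ∀ v, ∃ r ∈ R, ∃ φ : G ≃g G, φ r = v) →
        (∃ h : ℝ, 0 < h ∧
          ∀ A : Finset V, h * A.card ≤ {v | v ∉ A ∧ ∃ a ∈ A, G.Adj a v}.ncard) →
        (∀ u, H.degree u = e) → 1 ≤ e → H.Connected → (∀ a b : U, ∃ φ : H ≃g H, φ a = b) →
        ∃ k₀ : ℕ, ∀ k, k₀ ≤ k →
          pc (G.boxProd (powGraph H (Fin k))) < pu (G.boxProd (powGraph H (Fin k)))) := by
  refine ⟨fun a K ha => ?_, fun V U _ G _ H _ d e hd hc hqt hna he he1 hHc htr => ?_⟩
  · obtain ⟨D₀, hD₀⟩ := Sus.transitive_criterion (K := K) ha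
    refine ⟨D₀, fun V instV G _ D hD hV hc htr hreg hform hm => ?_⟩
    refine hD₀ V G D hD hV hc htr hreg hform (fun {inst} x j hj => ?_)
    obtain rfl : inst = instV := Subsingleton.elim _ _
    exact hm x j hj
  · obtain ⟨h, hh, hiso⟩ := hna
    exact Sus.product_nonuniqueness hd hc hqt hh hiso he he1 hHc htr

end Vale.Agent.Results.P165.SpectralGapProducts
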