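import Mathlib
import Vale.Agent.P165.Large.Reduce
import Vale.Agent.P165.TreeAct.Main
import Vale.Agent.P165.TreeAct.Collapse
import Vale.Agent.P165.TreeAct.F2Tree

/-!
A nonuniqueness phase on every unimodular quasi-transitive graph over a branched action on a tree,
in particular on every Cayley graph of every group with such an action, and of every large group.
-/

namespace Vale.Agent.Results.P165.TreeActions

open Vale.Agent.P165

/-- The group acts on the tree by automorphisms; two of its elements send some half-tree strictly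
into itself with disjoint images and a third one sends the opposite half-tree strictly into it. -/
def Branched (Γ : Type) [Group Γ] {τ : Type} [MulAction Γ τ] (T : SimpleGraph τ) : Prop :=
  T.IsTree ∧ (∀ (g : Γ) (x y : τ), T.Adj x y → T.Adj (g • x) (g • y)) ∧
    ∃ (a b : τ) (g₁ g₂ g₃ : Γ), T.Adj a b ∧
      (fun x : τ => g₁ • x) '' TreeAct.sideOf T a b ⊂ TreeAct.sideOf T a b ∧
      (fun x : τ => g₂ • x) '' TreeAct.sideOf T a b ⊂ TreeAct.sideOf T a b ∧
      Disjoint ((fun x : τ => g₁ • x) '' TreeAct.sideOf T a b)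
        ((fun x : τ => g₂ • x) '' TreeAct.sideOf T a b) ∧
      (fun x : τ => g₃ • x) '' (TreeAct.sideOf T a b)ᶜ ⊂ TreeAct.sideOf T a b

theorem result :
    (∀ (V τ Γ : Type) (H : SimpleGraph V) [H.LocallyFinite] (T : SimpleGraph τ) [Group Γ]
      [MulAction Γ V] [MulAction Γ τ] (pr : V → τ),
      H.Connected → (∀ (g : Γ) (u v : V), H.Adj u v → H.Adj (g • u) (g • v)) →
      (∃ O : Finset V, ∀ v, ∃ o ∈ O, ∃ g : Γ, g • o = v) →
      (∀ (g : Γ) (v : V), (MulAction.orbit (MulAction.stabilizer Γ v) (g • v)).ncard =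
        (MulAction.orbit (MulAction.stabilizer Γ (g • v)) v).ncard) →
      (∀ (g : Γ) (v : V), pr (g • v) = g • pr v) → Branched Γ T → pc H < pu H) ∧
    (∀ (V τ Γ : Type) (H : SimpleGraph V) [H.LocallyFinite] (T : SimpleGraph τ) [Group Γ]
      [MulAction Γ V] [MulAction Γ τ],
      H.Connected → (∀ (g : Γ) (u v : V), H.Adj u v → H.Adj (g • u) (g • v)) →
      (∀ (g : Γ) (v : V), g • v = v → g = 1) →
      (∃ O : Finset V, ∀ v, ∃ o ∈ O, ∃ g : Γ, g • o = v) → Branched Γ T → pc H < pu H) ∧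
    (∀ (G : Type) [Group G] (S : Finset G), Subgroup.closure (S : Set G) = ⊤ →
      ∀ (Δ : Subgroup G), Δ.FiniteIndex → ∀ (τ : Type) (T : SimpleGraph τ) [MulAction Δ τ],
        Branched Δ T →
        pc (SimpleGraph.mulCayley (S : Set G)) < pu (SimpleGraph.mulCayley (S : Set G))) ∧
    (∀ (V Γ : Type) (H : SimpleGraph V) [H.LocallyFinite] [Group Γ] [MulAction Γ V],
      H.Connected → (∀ (g : Γ) (u v : V), H.Adj u v → H.Adj (g • u) (g • v)) →
      (∀ (g : Γ) (v : V), g • v = v → g = 1) →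
      (∃ O : Finset V, ∀ v, ∃ o ∈ O, ∃ g : Γ, g • o = v) →
      (∃ π : Γ →* FreeGroup (Fin 2), Function.Surjective π) → pc H < pu H) ∧
    ∀ (G : Type) [Group G] (S : Finset G), Subgroup.closure (S : Set G) = ⊤ →
      ∀ (Δ : Subgroup G), Δ.FiniteIndex →
        (∃ π : Δ →* FreeGroup (Fin 2), Function.Surjective π) →
        pc (SimpleGraph.mulCayley (S : Set G)) < pu (SimpleGraph.mulCayley (S : Set G)) := by
  have hfree : ∀ (V τ Γ : Type) (H : SimpleGraph V) [H.LocallyFinite] (T : SimpleGraph τ) [Group Γ]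
      [MulAction Γ V] [MulAction Γ τ],
      H.Connected → (∀ (g : Γ) (u v : V), H.Adj u v → H.Adj (g • u) (g • v)) →
      (∀ (g : Γ) (v : V), g • v = v → g = 1) →
      (∃ O : Finset V, ∀ v, ∃ o ∈ O, ∃ g : Γ, g • o = v) → Branched Γ T → pc H < pu H := by
    intro V τ Γ H _ T _ _ _ hconn hadj hfree horb ⟨hT, htadj, hbr⟩
    obtain ⟨τ', _, f, hf⟩ :=
      TreeAct.exists_frame_free H T hconn hT hadj htadj hfree horb hbr
    exact hf ▸ f.nonuniqueness
  have hcay : ∀ (G : Type) [Group G] (S : Finset G), Subgroup.closure (S : Set G) = ⊤ →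
      ∀ (Δ : Subgroup G), Δ.FiniteIndex → ∀ (τ : Type) (T : SimpleGraph τ) [MulAction Δ τ],
        Branched Δ T →
        pc (SimpleGraph.mulCayley (S : Set G)) < pu (SimpleGraph.mulCayley (S : Set G)) := by
    intro G _ S hS Δ _ τ T _ hbr
    let : (SimpleGraph.mulCayley (S : Set G)).LocallyFinite := fun v =>
      (Large.cayley_finite S v).fintype
    obtain ⟨h1, h2, h3⟩ := Large.cayley_action S Δ
    exact hfree G τ Δ _ T (Large.cayley_connected S hS) h1 h2 h3 hbr
  refine ⟨?_, hfree, hcay, ?_, ?_⟩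
  · intro V τ Γ H _ T _ _ _ pr hconn hadj horb hunim hpr ⟨hT, htadj, hbr⟩
    obtain ⟨τ', _, f, hf⟩ :=
      TreeAct.exists_frame H T pr hconn hT hadj htadj horb hpr hunim hbr
    exact hf ▸ f.nonuniqueness
  · intro V Γ H _ _ _ hconn hadj hfr horb ⟨π, hπ⟩
    obtain ⟨T, act, hT, htadj, hbr⟩ := TreeAct.f2_branched π hπ
    exact hfree V (FreeGroup (Fin 2)) Γ H T hconn hadj hfr horb ⟨hT, htadj, hbr⟩
  · intro G _ S hS Δ hΔ ⟨π, hπ⟩
    obtain ⟨T, act, hT, htadj, hbr⟩ := TreeAct.f2_branched π hπ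
    exact hcay G S hS Δ hΔ (FreeGroup (Fin 2)) T ⟨hT, htadj, hbr⟩

end Vale.Agent.Results.P165.TreeActions
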